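import Mathlib
import Vale.Agent.Lib.P249.helper62.GridDefs

/-!
Final `PiLp` assembly of the grid lower bound for P249 (helper98, backup copy of pool job
GRID-L of helper62, report 1926).

`grid_final_of`: the hand-in statement, with the two upstream results (`grid_core` and
`gX_injective`) as hypotheses, so that this file does not depend on files that are not yet
landed.
-/

namespace Vale.Agent.Lib.P249.H98

open Finset
open Vale.Agent.Lib.P249.H62

/-- The grid lower bound for `PiLp`, from the core inequality and the injectivity of the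
Rademacher sums (both as hypotheses). -/
theorem grid_final_of
    (hcore : ∀ (k : ℕ), 1 ≤ k → ∀ (q : ℝ), 2 ≤ q → ∀ (d : ℕ) (s D : ℝ), 0 < s →
      ∀ (y : (Fin k → Fin (2 * (3 * k) + 1)) → Fin d → ℝ),
      (∀ c c', s ^ q * ∑ e, |gX (3 * k) k c e - gX (3 * k) k c' e| ^ q
        ≤ ∑ i, |y c i - y c' i| ^ q) →
      (∀ c c', ∑ i, |y c i - y c' i| ^ q
        ≤ D ^ q * s ^ q * ∑ e, |gX (3 * k) k c e - gX (3 * k) k c' e| ^ q) →
      (1 / 11 : ℝ) * (2 * k / (3 * q ^ 2)) ^ (q / 2) ≤ D ^ q * d)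
    (hinj : ∀ M k : ℕ, Function.Injective (gX M k))
    (p : ENNReal) [Fact (1 ≤ p)] (hp : p ≠ ⊤) (hp2 : 2 ≤ p) (k : ℕ) (hk : 1 ≤ k) :
    ∃ (m : ℕ) (x : Fin ((6 * k + 1) ^ k) → PiLp p (fun _ : Fin m => ℝ)), Function.Injective x ∧
      ∀ (d : ℕ) (y : Fin ((6 * k + 1) ^ k) → PiLp p (fun _ : Fin d => ℝ)) (s D : ℝ), 0 < s →
        (∀ i j, s * dist (x i) (x j) ≤ dist (y i) (y j) ∧
          dist (y i) (y j) ≤ D * s * dist (x i) (x j)) →
        (1 / 11 : ℝ) * (2 * k / (3 * p.toReal ^ 2)) ^ (p.toReal / 2) ≤ D ^ p.toReal * d := by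
  have hq : 2 ≤ p.toReal := by
    have := ENNReal.toReal_mono hp hp2
    simpa using this
  have hq0 : 0 < p.toReal := by linarith
  have hcard : Fintype.card (Fin k → Fin (2 * (3 * k) + 1)) = (6 * k + 1) ^ k := by
    rw [Fintype.card_fun, Fintype.card_fin, Fintype.card_fin]
    congr 1
    ring
  let e : Fin ((6 * k + 1) ^ k) ≃ (Fin k → Fin (2 * (3 * k) + 1)) :=
    (Fintype.equivFinOfCardEq hcard).symm
  have hcard2 : Fintype.card (Fin k → Bool) = 2 ^ k := by simp
  let t : Fin (2 ^ k) ≃ (Fin k → Bool) := (Fintype.equivFinOfCardEq hcard2).symm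
  let x : Fin ((6 * k + 1) ^ k) → PiLp p (fun _ : Fin (2 ^ k) => ℝ) := fun i =>
    WithLp.toLp p (fun j => gX (3 * k) k (e i) (t j))
  have hxapp : ∀ i j, x i j = gX (3 * k) k (e i) (t j) := fun i j => rfl
  have hxinj : Function.Injective x := by
    intro i j hij
    apply e.injective
    apply hinj (3 * k) k
    funext ε
    have h1 : x i (t.symm ε) = x j (t.symm ε) := by rw [hij]
    rw [hxapp, hxapp, Equiv.apply_symm_apply] at h1
    exact h1
  refine ⟨2 ^ k, x, hxinj, ?_⟩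
  intro d y s D hs hy
  have hdist : ∀ (n : ℕ) (u v : PiLp p (fun _ : Fin n => ℝ)),
      dist u v ^ p.toReal = ∑ j, |u j - v j| ^ p.toReal := by
    intro n u v
    rw [PiLp.dist_eq_sum hq0,
      ← Real.rpow_mul (Finset.sum_nonneg (fun j _ => Real.rpow_nonneg dist_nonneg _)),
      one_div_mul_cancel hq0.ne', Real.rpow_one]
    exact Finset.sum_congr rfl (fun j _ => by rw [Real.dist_eq])
  have hXeq : ∀ c c' : Fin k → Fin (2 * (3 * k) + 1),
      dist (x (e.symm c)) (x (e.symm c')) ^ p.toReal =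
        ∑ ε : Fin k → Bool, |gX (3 * k) k c ε - gX (3 * k) k c' ε| ^ p.toReal := by
    intro c c'
    rw [hdist, ← Equiv.sum_comp t]
    refine Finset.sum_congr rfl (fun j _ => ?_)
    rw [hxapp, hxapp, Equiv.apply_symm_apply, Equiv.apply_symm_apply]
  -- D is at least one, in particular nonnegative
  have hD : 0 ≤ D := by
    have h2 : 2 ≤ (6 * k + 1) ^ k := by
      calc 2 ≤ 6 * k + 1 := by omega
        _ = (6 * k + 1) ^ 1 := by ring
        _ ≤ (6 * k + 1) ^ k := Nat.pow_le_pow_right (by omega) hk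
    let i0 : Fin ((6 * k + 1) ^ k) := ⟨0, by omega⟩
    let i1 : Fin ((6 * k + 1) ^ k) := ⟨1, by omega⟩
    have hne : i0 ≠ i1 := by
      intro h
      have := congrArg Fin.val h
      simp [i0, i1] at this
    have hpos : 0 < dist (x i0) (x i1) := dist_pos.mpr (fun h => hne (hxinj h))
    have h3 := (hy i0 i1).1.trans (hy i0 i1).2
    have h4 : 0 < s * dist (x i0) (x i1) := mul_pos hs hpos
    have h5 : 1 * (s * dist (x i0) (x i1)) ≤ D * (s * dist (x i0) (x i1)) := by
      rw [one_mul, ← mul_assoc]; exact h3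
    have h6 : 1 ≤ D := le_of_mul_le_mul_right h5 h4
    linarith
  refine hcore k hk p.toReal hq d s D hs (fun c i => y (e.symm c) i) ?_ ?_
  · intro c c'
    show s ^ p.toReal * ∑ ε : Fin k → Bool, |gX (3 * k) k c ε - gX (3 * k) k c' ε| ^ p.toReal ≤
      ∑ i, |y (e.symm c) i - y (e.symm c') i| ^ p.toReal
    rw [← hXeq, ← hdist, ← Real.mul_rpow hs.le dist_nonneg]
    exact Real.rpow_le_rpow (mul_nonneg hs.le dist_nonneg) (hy _ _).1 hq0.le
  · intro c c'
    show ∑ i, |y (e.symm c) i - y (e.symm c') i| ^ p.toReal ≤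
      D ^ p.toReal * s ^ p.toReal *
        ∑ ε : Fin k → Bool, |gX (3 * k) k c ε - gX (3 * k) k c' ε| ^ p.toReal
    rw [← hXeq, ← hdist, ← Real.mul_rpow hD hs.le,
      ← Real.mul_rpow (mul_nonneg hD hs.le) dist_nonneg]
    exact Real.rpow_le_rpow dist_nonneg (hy _ _).2 hq0.le

end Vale.Agent.Lib.P249.H98
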