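import Mathlib
import Vale.Agent.Lib.P249.helper62.GridDefs

/-!
Finite core of the grid lower bound for P249 (helper98, backup copy of step J-K of helper62,
report 1926), with the upstream lemmas (concentration on the grid, the two Khinchine bounds, the
defect bound and the spread bound) as hypotheses, so that this file does not depend on files
that are not yet landed.
-/

namespace Vale.Agent.Lib.P249.H98

open Finset
open Vale.Agent.Lib.P249.H62

/-- The core counting argument on the grid `Fin (2 * M + 1)` for a general `M`, with the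
defect bound for this `M` as a hypothesis and `Dq` in the place of `D ^ q`. -/
theorem grid_core_gen
    (hconc : ∀ (M : ℕ), 1 ≤ M → ∀ (k : ℕ) (q : ℝ), 1 ≤ q → ∀ (Lam : ℝ), 0 ≤ Lam →
      ∀ (h : (Fin k → Fin (2 * M + 1)) → ℝ),
      (∀ x y, |h x - h y| ≤ Lam * Real.sqrt (gdist2 M k x y)) →
      ∑ x, ∑ y, gPhi M k x * gPhi M k y * |h x - h y| ^ q
        ≤ 2 * (gZ M + 1) ^ (2 * k) * (q * (M : ℝ) ^ 2 / Real.exp 1) ^ (q / 2) * Lam ^ q)
    (hku : ∀ (k : ℕ) (q : ℝ), 0 < q → ∀ (c : Fin k → ℝ),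
      ∑ e : Fin k → Bool, |∑ j, c j * sg (e j)| ^ q
        ≤ 2 * 2 ^ k * (q * (∑ j, c j ^ 2) / Real.exp 1) ^ (q / 2))
    (hkl : ∀ (k : ℕ) (q : ℝ), 2 ≤ q → ∀ (c : Fin k → ℝ),
      (2 : ℝ) ^ k * (∑ j, c j ^ 2) ^ (q / 2) ≤ ∑ e : Fin k → Bool, |∑ j, c j * sg (e j)| ^ q)
    (hspread : ∀ (M : ℕ), 1 ≤ M → ∀ (k : ℕ), 1 ≤ k → ∀ (q : ℝ), 2 ≤ q →
      gZ M ^ (2 * k) * (2 * k * (M : ℝ) ^ 2 / (3 * Real.exp 2)) ^ (q / 2)
        ≤ ∑ x, ∑ y, gPhi M k x * gPhi M k y * (gdist2 M k x y) ^ (q / 2))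
    (M : ℕ) (hM : 1 ≤ M) (k : ℕ) (hk : 1 ≤ k)
    (hdef : (gZ M + 1) ^ (2 * k) ≤ Real.exp 1 * gZ M ^ (2 * k))
    (q : ℝ) (hq : 2 ≤ q) (d : ℕ) (s Dq : ℝ) (hs : 0 < s)
    (y : (Fin k → Fin (2 * M + 1)) → Fin d → ℝ)
    (hlow : ∀ c c', s ^ q * ∑ e, |gX M k c e - gX M k c' e| ^ q ≤ ∑ i, |y c i - y c' i| ^ q)
    (hup : ∀ c c', ∑ i, |y c i - y c' i| ^ q
      ≤ Dq * s ^ q * ∑ e, |gX M k c e - gX M k c' e| ^ q) :
    (1 / 11 : ℝ) * (2 * k / (3 * q ^ 2)) ^ (q / 2) ≤ Dq * d := by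
  have hq0 : 0 < q := by linarith
  have hq1 : 1 ≤ q := by linarith
  have hMr : (1 : ℝ) ≤ (M : ℝ) := by exact_mod_cast hM
  have hkr : (1 : ℝ) ≤ (k : ℝ) := by exact_mod_cast hk
  have hE : 0 < Real.exp 1 := Real.exp_pos 1
  have hE2 : Real.exp 2 = Real.exp 1 * Real.exp 1 := by
    rw [← Real.exp_add]; norm_num
  have hZpos : 0 < gZ M := by
    unfold gZ
    exact Finset.sum_pos (fun t _ => Real.exp_pos _) Finset.univ_nonempty
  have hPhi : ∀ c : Fin k → Fin (2 * M + 1), 0 < gPhi M k c := by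
    intro c
    unfold gPhi
    exact Finset.prod_pos (fun j _ => Real.exp_pos _)
  have hG0 : ∀ c c' : Fin k → Fin (2 * M + 1), 0 ≤ gdist2 M k c c' := by
    intro c c'
    unfold gdist2
    exact Finset.sum_nonneg (fun j _ => sq_nonneg _)
  have hsq : 0 < s ^ q := Real.rpow_pos_of_pos hs q
  have h2k : (0 : ℝ) < (2 : ℝ) ^ k := by positivity
  have hgXsub : ∀ (c c' : Fin k → Fin (2 * M + 1)) (e : Fin k → Bool),
      gX M k c e - gX M k c' e = ∑ j, (gv M (c j) - gv M (c' j)) * sg (e j) := by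
    intro c c' e
    unfold gX
    rw [← Finset.sum_sub_distrib]
    exact Finset.sum_congr rfl (fun j _ => by ring)
  have hS0 : ∀ c c' : Fin k → Fin (2 * M + 1),
      0 ≤ ∑ e, |gX M k c e - gX M k c' e| ^ q := by
    intro c c'
    exact Finset.sum_nonneg (fun e _ => Real.rpow_nonneg (abs_nonneg _) q)
  have hSlow : ∀ c c' : Fin k → Fin (2 * M + 1),
      (2 : ℝ) ^ k * (gdist2 M k c c') ^ (q / 2) ≤ ∑ e, |gX M k c e - gX M k c' e| ^ q := by
    intro c c'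
    have h := hkl k q hq (fun j => gv M (c j) - gv M (c' j))
    have he : ∑ e, |gX M k c e - gX M k c' e| ^ q =
        ∑ e : Fin k → Bool, |∑ j, (gv M (c j) - gv M (c' j)) * sg (e j)| ^ q :=
      Finset.sum_congr rfl (fun e _ => by rw [hgXsub])
    rw [he]
    exact h
  have hSup : ∀ c c' : Fin k → Fin (2 * M + 1),
      ∑ e, |gX M k c e - gX M k c' e| ^ q
        ≤ 2 * 2 ^ k * (q * gdist2 M k c c' / Real.exp 1) ^ (q / 2) := by
    intro c c'
    have h := hku k q hq0 (fun j => gv M (c j) - gv M (c' j))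
    have he : ∑ e, |gX M k c e - gX M k c' e| ^ q =
        ∑ e : Fin k → Bool, |∑ j, (gv M (c j) - gv M (c' j)) * sg (e j)| ^ q :=
      Finset.sum_congr rfl (fun e _ => by rw [hgXsub])
    rw [he]
    exact h
  -- the constant `Dq` is nonnegative
  have hDq : 0 ≤ Dq := by
    by_contra hneg
    rw [not_le] at hneg
    have hSle : ∀ c c' : Fin k → Fin (2 * M + 1),
        ∑ e, |gX M k c e - gX M k c' e| ^ q ≤ 0 := by
      intro c c'
      by_contra hpos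
      rw [not_le] at hpos
      have h1 := (hlow c c').trans (hup c c')
      have h2 : Dq * s ^ q * ∑ e, |gX M k c e - gX M k c' e| ^ q < 0 :=
        mul_neg_of_neg_of_pos (mul_neg_of_neg_of_pos hneg hsq) hpos
      have h3 : 0 < s ^ q * ∑ e, |gX M k c e - gX M k c' e| ^ q := mul_pos hsq hpos
      linarith
    have hGle : ∀ c c' : Fin k → Fin (2 * M + 1), (gdist2 M k c c') ^ (q / 2) ≤ 0 := by
      intro c c'
      have h1 := (hSlow c c').trans (hSle c c')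
      by_contra hpos
      rw [not_le] at hpos
      have : 0 < (2 : ℝ) ^ k * (gdist2 M k c c') ^ (q / 2) := mul_pos h2k hpos
      linarith
    have h4 := hspread M hM k hk q hq
    have h5 : ∑ x, ∑ y, gPhi M k x * gPhi M k y * (gdist2 M k x y) ^ (q / 2) ≤ 0 :=
      Finset.sum_nonpos (fun x _ => Finset.sum_nonpos (fun y _ =>
        mul_nonpos_of_nonneg_of_nonpos (mul_pos (hPhi x) (hPhi y)).le (hGle x y)))
    have h6 : 0 < gZ M ^ (2 * k) * (2 * k * (M : ℝ) ^ 2 / (3 * Real.exp 2)) ^ (q / 2) := by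
      have hb : 0 < 2 * (k : ℝ) * (M : ℝ) ^ 2 / (3 * Real.exp 2) := by positivity
      exact mul_pos (pow_pos hZpos _) (Real.rpow_pos_of_pos hb _)
    linarith
  -- the Lipschitz constant of the coordinates
  set U : ℝ := 2 * (2 : ℝ) ^ k * (q / Real.exp 1) ^ (q / 2) with hU
  have hUpos : 0 < U := by
    have : 0 < (q / Real.exp 1) ^ (q / 2) := Real.rpow_pos_of_pos (div_pos hq0 hE) _
    rw [hU]; positivity
  set Lam : ℝ := (Dq * s ^ q * U) ^ (1 / q) with hLam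
  have hbase : 0 ≤ Dq * s ^ q * U := mul_nonneg (mul_nonneg hDq hsq.le) hUpos.le
  have hLam0 : 0 ≤ Lam := Real.rpow_nonneg hbase _
  have hLamq : Lam ^ q = Dq * s ^ q * U := by
    rw [hLam, ← Real.rpow_mul hbase, one_div_mul_cancel hq0.ne', Real.rpow_one]
  have hlip : ∀ (i : Fin d) (c c' : Fin k → Fin (2 * M + 1)),
      |y c i - y c' i| ≤ Lam * Real.sqrt (gdist2 M k c c') := by
    intro i c c'
    have h1 : |y c i - y c' i| ^ q ≤ ∑ i, |y c i - y c' i| ^ q :=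
      Finset.single_le_sum (f := fun i => |y c i - y c' i| ^ q)
        (fun i _ => Real.rpow_nonneg (abs_nonneg _) q) (Finset.mem_univ i)
    have hsqrt : Real.sqrt (gdist2 M k c c') ^ q = (gdist2 M k c c') ^ (q / 2) := by
      rw [Real.sqrt_eq_rpow, ← Real.rpow_mul (hG0 c c')]
      congr 1
      ring
    have h2 : |y c i - y c' i| ^ q ≤ (Lam * Real.sqrt (gdist2 M k c c')) ^ q := by
      rw [Real.mul_rpow hLam0 (Real.sqrt_nonneg _), hLamq, hsqrt]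
      calc |y c i - y c' i| ^ q ≤ ∑ i, |y c i - y c' i| ^ q := h1
        _ ≤ Dq * s ^ q * ∑ e, |gX M k c e - gX M k c' e| ^ q := hup c c'
        _ ≤ Dq * s ^ q * (2 * 2 ^ k * (q * gdist2 M k c c' / Real.exp 1) ^ (q / 2)) :=
            mul_le_mul_of_nonneg_left (hSup c c') (mul_nonneg hDq hsq.le)
        _ = Dq * s ^ q * U * (gdist2 M k c c') ^ (q / 2) := by
            rw [show q * gdist2 M k c c' / Real.exp 1 = (q / Real.exp 1) * gdist2 M k c c' by ring,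
              Real.mul_rpow (div_pos hq0 hE).le (hG0 c c'), hU]
            ring
    exact (Real.rpow_le_rpow_iff (abs_nonneg _)
      (mul_nonneg hLam0 (Real.sqrt_nonneg _)) hq0).mp h2
  -- upper bound for the weighted double sum
  have hsum_up : ∑ c, ∑ c', gPhi M k c * gPhi M k c' * ∑ i, |y c i - y c' i| ^ q ≤
      d * (2 * (gZ M + 1) ^ (2 * k) * (q * (M : ℝ) ^ 2 / Real.exp 1) ^ (q / 2) * Lam ^ q) := by
    have hA : ∑ c, ∑ c', gPhi M k c * gPhi M k c' * ∑ i, |y c i - y c' i| ^ q =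
        ∑ i, ∑ c, ∑ c', gPhi M k c * gPhi M k c' * |y c i - y c' i| ^ q := by
      calc ∑ c, ∑ c', gPhi M k c * gPhi M k c' * ∑ i, |y c i - y c' i| ^ q
          = ∑ c, ∑ c', ∑ i, gPhi M k c * gPhi M k c' * |y c i - y c' i| ^ q :=
            Finset.sum_congr rfl (fun c _ => Finset.sum_congr rfl (fun c' _ =>
              Finset.mul_sum _ _ _))
        _ = ∑ c, ∑ i, ∑ c', gPhi M k c * gPhi M k c' * |y c i - y c' i| ^ q :=
            Finset.sum_congr rfl (fun c _ => Finset.sum_comm)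
        _ = ∑ i, ∑ c, ∑ c', gPhi M k c * gPhi M k c' * |y c i - y c' i| ^ q := Finset.sum_comm
    rw [hA]
    calc ∑ i, ∑ c, ∑ c', gPhi M k c * gPhi M k c' * |y c i - y c' i| ^ q
        ≤ ∑ _i : Fin d,
            (2 * (gZ M + 1) ^ (2 * k) * (q * (M : ℝ) ^ 2 / Real.exp 1) ^ (q / 2) * Lam ^ q) :=
          Finset.sum_le_sum (fun i _ =>
            hconc M hM k q hq1 Lam hLam0 (fun c => y c i) (hlip i))
      _ = d * (2 * (gZ M + 1) ^ (2 * k) * (q * (M : ℝ) ^ 2 / Real.exp 1) ^ (q / 2) * Lam ^ q) := by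
          rw [Finset.sum_const, Finset.card_univ, Fintype.card_fin, nsmul_eq_mul]
  -- lower bound for the weighted double sum
  have hsum_low : s ^ q * ((2 : ℝ) ^ k *
      (gZ M ^ (2 * k) * (2 * k * (M : ℝ) ^ 2 / (3 * Real.exp 2)) ^ (q / 2))) ≤
      ∑ c, ∑ c', gPhi M k c * gPhi M k c' * ∑ i, |y c i - y c' i| ^ q := by
    calc s ^ q * ((2 : ℝ) ^ k *
          (gZ M ^ (2 * k) * (2 * k * (M : ℝ) ^ 2 / (3 * Real.exp 2)) ^ (q / 2)))
        ≤ s ^ q * ((2 : ℝ) ^ k *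
            ∑ c, ∑ c', gPhi M k c * gPhi M k c' * (gdist2 M k c c') ^ (q / 2)) :=
          mul_le_mul_of_nonneg_left
            (mul_le_mul_of_nonneg_left (hspread M hM k hk q hq) h2k.le) hsq.le
      _ = ∑ c, ∑ c', gPhi M k c * gPhi M k c' *
            (s ^ q * ((2 : ℝ) ^ k * (gdist2 M k c c') ^ (q / 2))) := by
          rw [Finset.mul_sum, Finset.mul_sum]
          refine Finset.sum_congr rfl (fun c _ => ?_)
          rw [Finset.mul_sum, Finset.mul_sum]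
          exact Finset.sum_congr rfl (fun c' _ => by ring)
      _ ≤ ∑ c, ∑ c', gPhi M k c * gPhi M k c' * ∑ i, |y c i - y c' i| ^ q :=
          Finset.sum_le_sum (fun c _ => Finset.sum_le_sum (fun c' _ =>
            mul_le_mul_of_nonneg_left
              ((mul_le_mul_of_nonneg_left (hSlow c c') hsq.le).trans (hlow c c'))
              (mul_pos (hPhi c) (hPhi c')).le))
  have hmain := hsum_low.trans hsum_up
  rw [hLamq] at hmain
  -- simplify the powers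
  set P1 : ℝ := (q * (M : ℝ) ^ 2 / Real.exp 1) ^ (q / 2) with hP1
  set P2 : ℝ := (q / Real.exp 1) ^ (q / 2) with hP2
  set A : ℝ := (2 * (k : ℝ) / (3 * q ^ 2)) ^ (q / 2) with hA
  have hP1pos : 0 < P1 := Real.rpow_pos_of_pos (by positivity) _
  have hP2pos : 0 < P2 := Real.rpow_pos_of_pos (div_pos hq0 hE) _
  have hA0 : 0 ≤ A := Real.rpow_nonneg (by positivity) _
  have hkey : (2 * (k : ℝ) * (M : ℝ) ^ 2 / (3 * Real.exp 2)) ^ (q / 2) = A * P1 * P2 := by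
    rw [hA, hP1, hP2, ← Real.mul_rpow (by positivity) (by positivity),
      ← Real.mul_rpow (by positivity) (by positivity), hE2]
    congr 1
    field_simp
  rw [hkey] at hmain
  have hZ2k : 0 < gZ M ^ (2 * k) := pow_pos hZpos _
  have hW : 0 < s ^ q * (2 : ℝ) ^ k * gZ M ^ (2 * k) * P1 * P2 := by positivity
  have hdn : 0 ≤ (d : ℝ) := Nat.cast_nonneg d
  have hstep : (d : ℝ) * (2 * (gZ M + 1) ^ (2 * k) * P1 * (Dq * s ^ q * U)) ≤
      (d : ℝ) * (2 * (Real.exp 1 * gZ M ^ (2 * k)) * P1 * (Dq * s ^ q * U)) := by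
    have hnn : 0 ≤ P1 * (Dq * s ^ q * U) := mul_nonneg hP1pos.le hbase
    have h1 : 2 * (gZ M + 1) ^ (2 * k) * P1 * (Dq * s ^ q * U) ≤
        2 * (Real.exp 1 * gZ M ^ (2 * k)) * P1 * (Dq * s ^ q * U) := by
      have := mul_le_mul_of_nonneg_right (mul_le_mul_of_nonneg_left hdef (by norm_num : (0:ℝ) ≤ 2)) hnn
      linarith [this]
    exact mul_le_mul_of_nonneg_left h1 hdn
  have hcancel : A ≤ 4 * Real.exp 1 * (d : ℝ) * Dq := by
    refine le_of_mul_le_mul_left ?_ hW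
    calc s ^ q * (2 : ℝ) ^ k * gZ M ^ (2 * k) * P1 * P2 * A
        = s ^ q * ((2 : ℝ) ^ k * (gZ M ^ (2 * k) * (A * P1 * P2))) := by ring
      _ ≤ (d : ℝ) * (2 * (gZ M + 1) ^ (2 * k) * P1 * (Dq * s ^ q * U)) := hmain
      _ ≤ (d : ℝ) * (2 * (Real.exp 1 * gZ M ^ (2 * k)) * P1 * (Dq * s ^ q * U)) := hstep
      _ = s ^ q * (2 : ℝ) ^ k * gZ M ^ (2 * k) * P1 * P2 * (4 * Real.exp 1 * (d : ℝ) * Dq) := by
          rw [hU]; ring
  have he : Real.exp 1 < 2.7182818286 := Real.exp_one_lt_d9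
  have hdD : 0 ≤ (d : ℝ) * Dq := mul_nonneg hdn hDq
  nlinarith [hcancel, hdD, hA0]

/-- The finite core of the grid lower bound (`M = 3 * k`), from the upstream lemmas. -/
theorem grid_core_of
    (hconc : ∀ (M : ℕ), 1 ≤ M → ∀ (k : ℕ) (q : ℝ), 1 ≤ q → ∀ (Lam : ℝ), 0 ≤ Lam →
      ∀ (h : (Fin k → Fin (2 * M + 1)) → ℝ),
      (∀ x y, |h x - h y| ≤ Lam * Real.sqrt (gdist2 M k x y)) →
      ∑ x, ∑ y, gPhi M k x * gPhi M k y * |h x - h y| ^ q
        ≤ 2 * (gZ M + 1) ^ (2 * k) * (q * (M : ℝ) ^ 2 / Real.exp 1) ^ (q / 2) * Lam ^ q)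
    (hku : ∀ (k : ℕ) (q : ℝ), 0 < q → ∀ (c : Fin k → ℝ),
      ∑ e : Fin k → Bool, |∑ j, c j * sg (e j)| ^ q
        ≤ 2 * 2 ^ k * (q * (∑ j, c j ^ 2) / Real.exp 1) ^ (q / 2))
    (hkl : ∀ (k : ℕ) (q : ℝ), 2 ≤ q → ∀ (c : Fin k → ℝ),
      (2 : ℝ) ^ k * (∑ j, c j ^ 2) ^ (q / 2) ≤ ∑ e : Fin k → Bool, |∑ j, c j * sg (e j)| ^ q)
    (hdef : ∀ (k : ℕ), 1 ≤ k →
      (gZ (3 * k) + 1) ^ (2 * k) ≤ Real.exp 1 * gZ (3 * k) ^ (2 * k))
    (hspread : ∀ (M : ℕ), 1 ≤ M → ∀ (k : ℕ), 1 ≤ k → ∀ (q : ℝ), 2 ≤ q →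
      gZ M ^ (2 * k) * (2 * k * (M : ℝ) ^ 2 / (3 * Real.exp 2)) ^ (q / 2)
        ≤ ∑ x, ∑ y, gPhi M k x * gPhi M k y * (gdist2 M k x y) ^ (q / 2))
    (k : ℕ) (hk : 1 ≤ k) (q : ℝ) (hq : 2 ≤ q) (d : ℕ) (s D : ℝ) (hs : 0 < s)
    (y : (Fin k → Fin (2 * (3 * k) + 1)) → Fin d → ℝ)
    (hlow : ∀ c c', s ^ q * ∑ e, |gX (3 * k) k c e - gX (3 * k) k c' e| ^ q
      ≤ ∑ i, |y c i - y c' i| ^ q)
    (hup : ∀ c c', ∑ i, |y c i - y c' i| ^ q
      ≤ D ^ q * s ^ q * ∑ e, |gX (3 * k) k c e - gX (3 * k) k c' e| ^ q) :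
    (1 / 11 : ℝ) * (2 * k / (3 * q ^ 2)) ^ (q / 2) ≤ D ^ q * d :=
  grid_core_gen hconc hku hkl hspread (3 * k) (by omega) k hk (hdef k hk) q hq d s (D ^ q) hs y
    hlow hup

end Vale.Agent.Lib.P249.H98
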