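import Mathlib
import Vale.Agent.Lib.P249.helper62.GridDefs
import Vale.Agent.Lib.P249.helper98.GridCore
import Vale.Agent.Lib.P249.helper98.GridFinal

/-!
The grid lower bound for P249 in its `PiLp` form, from the six upstream lemmas of helper62's
skeleton (report 1926) as hypotheses (helper98, backup assembly).
-/

namespace Vale.Agent.Lib.P249.H98

open Finset
open Vale.Agent.Lib.P249.H62

/-- The hand-in statement of the grid lower bound, from the upstream lemmas `grid_conc`,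
`khin_upper`, `khin_lower`, `gZ_defect`, `grid_spread` and `gX_injective` (as hypotheses). -/
theorem grid_final_of_lemmas
    (hconc : ∀ (M : ℕ), 1 ≤ M → ∀ (k : ℕ) (q : ℝ), 1 ≤ q → ∀ (Lam : ℝ), 0 ≤ Lam →
      ∀ (h : (Fin k → Fin (2 * M + 1)) → ℝ),
      (∀ x y, |h x - h y| ≤ Lam * Real.sqrt (gdist2 M k x y)) →
      ∑ x, ∑ y, gPhi M k x * gPhi M k y * |h x - h y| ^ q
        ≤ 2 * (gZ M + 1) ^ (2 * k) * (q * (M : ℝ) ^ 2 / Real.exp 1) ^ (q / 2) * Lam ^ q)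
    (hku : ∀ (k : ℕ) (q : ℝ), 0 < q → ∀ (c : Fin k → ℝ),
      ∑ e : Fin k → Bool, |∑ j, c j * sg (e j)| ^ q
        ≤ 2 * 2 ^ k * (q * (∑ j, c j ^ 2) / Real.exp 1) ^ (q / 2))
    (hkl : ∀ (k : ℕ) (q : ℝ), 2 ≤ q → ∀ (c : Fin k → ℝ),
      (2 : ℝ) ^ k * (∑ j, c j ^ 2) ^ (q / 2) ≤ ∑ e : Fin k → Bool, |∑ j, c j * sg (e j)| ^ q)
    (hdef : ∀ (k : ℕ), 1 ≤ k →
      (gZ (3 * k) + 1) ^ (2 * k) ≤ Real.exp 1 * gZ (3 * k) ^ (2 * k))
    (hspread : ∀ (M : ℕ), 1 ≤ M → ∀ (k : ℕ), 1 ≤ k → ∀ (q : ℝ), 2 ≤ q →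
      gZ M ^ (2 * k) * (2 * k * (M : ℝ) ^ 2 / (3 * Real.exp 2)) ^ (q / 2)
        ≤ ∑ x, ∑ y, gPhi M k x * gPhi M k y * (gdist2 M k x y) ^ (q / 2))
    (hinj : ∀ M k : ℕ, Function.Injective (gX M k))
    (p : ENNReal) [Fact (1 ≤ p)] (hp : p ≠ ⊤) (hp2 : 2 ≤ p) (k : ℕ) (hk : 1 ≤ k) :
    ∃ (m : ℕ) (x : Fin ((6 * k + 1) ^ k) → PiLp p (fun _ : Fin m => ℝ)), Function.Injective x ∧
      ∀ (d : ℕ) (y : Fin ((6 * k + 1) ^ k) → PiLp p (fun _ : Fin d => ℝ)) (s D : ℝ), 0 < s →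
        (∀ i j, s * dist (x i) (x j) ≤ dist (y i) (y j) ∧
          dist (y i) (y j) ≤ D * s * dist (x i) (x j)) →
        (1 / 11 : ℝ) * (2 * k / (3 * p.toReal ^ 2)) ^ (p.toReal / 2) ≤ D ^ p.toReal * d :=
  grid_final_of
    (fun k hk q hq d s D hs y hlow hup =>
      grid_core_of hconc hku hkl hdef hspread k hk q hq d s D hs y hlow hup)
    hinj p hp hp2 k hk

end Vale.Agent.Lib.P249.H98
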